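import Vale.Agent.P011.D4Z.H493.Clg
import Vale.Agent.P011N.D1.D4X.Defs
import Vale.Agent.P011N.D1.D4X.H691.Na
import Vale.Agent.P011N.D1.D4X.H691.Top

/-!
Version for big subgroups of `P011.D4Z.H493.Clg`.
-/

open Filter Topology NumberField

set_option linter.unusedSectionVars false

namespace Vale.Agent.P011.D4Z

open Vale.Agent.P011.MPQ Vale.Agent.P011.D4 Vale.Agent.P011.D4.Oct Vale.Agent.P011.D4X

open Vale.Agent.P011.E6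

open scoped ComplexConjugate

section spec

variable {k L E : Type} [Field k] [NumberField k] [Field L] [NumberField L] [Field E]
  [NumberField E] [Algebra k L] [Algebra k E] [Algebra L E]
  [IsScalarTower k L E] [NeZero (2 : E)] {ρ σ : E ≃ₐ[k] E} {ρL : L ≃ₐ[k] L} {α : E}
  {a b c : kˣ} {q : Lˣ} (H : Hy ρ σ ρL α a b c q)

include H

/-- T2: isometry. -/
theorem clg_bilB [Algebra k ℂ] (W : E →ₐ[k] ℂ) (hW : (W : E →+* ℂ) ∈ Bd ρ σ q)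
    {g : OctL E a b c ≃ₗ[E] OctL E a b c} (hg : g ∈ GT ρ σ α a b c q)
    {Y : Bd ρ σ q → Matrix (Fin 8) (Fin 8) ℂ}
    (hY : Y ∈ clg (Bd ρ σ q) (RsB ρ σ α a b c q) g) (x y : OctL ℂ a b c) :
    bil (act (Y ⟨W, hW⟩) x) (act (Y ⟨W, hW⟩) y) = bil x y :=
  clg_bil_of hW (fun _ hz => GT_bil H ((GT ρ σ α a b c q).mul_mem (Rs_leB hz) hg)) hY x y

omit H

/-- T2: `J`. -/
theorem clg_JB [Algebra k ℂ] (W : E →ₐ[k] ℂ) (hW : (W : E →+* ℂ) ∈ Bd ρ σ q)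
    {g : OctL E a b c ≃ₗ[E] OctL E a b c} (hg : g ∈ GT ρ σ α a b c q)
    {Y : Bd ρ σ q → Matrix (Fin 8) (Fin 8) ℂ}
    (hY : Y ∈ clg (Bd ρ σ q) (RsB ρ σ α a b c q) g) (x : OctL ℂ a b c) :
    act (Y ⟨W, hW⟩) (JW W ρ α q x) = JW W ρ α q (act (Y ⟨W, hW⟩) x) :=
  clg_J_of hW hW.1 (fun _ hz => ((GT ρ σ α a b c q).mul_mem (Rs_leB hz) hg).2) hY x

/-- T2: triality. -/
theorem clg_triB [Algebra k ℂ] (W W' W'' : E →ₐ[k] ℂ) (hW : (W : E →+* ℂ) ∈ Bd ρ σ q)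
    (hW' : (W' : E →+* ℂ) ∈ Bd ρ σ q) (hW'' : (W'' : E →+* ℂ) ∈ Bd ρ σ q)
    (h' : W' = cmp W ρ) (h'' : W'' = cmp W' ρ)
    {g : OctL E a b c ≃ₗ[E] OctL E a b c} (hg : g ∈ GT ρ σ α a b c q)
    {Y : Bd ρ σ q → Matrix (Fin 8) (Fin 8) ℂ}
    (hY : Y ∈ clg (Bd ρ σ q) (RsB ρ σ α a b c q) g) (x y : OctL ℂ a b c) :
    act (Y ⟨W, hW⟩) (star x * star y) =
      star (act (Y ⟨W', hW'⟩) x) * star (act (Y ⟨W'', hW''⟩) y) :=
  clg_tri_of hW hW' hW'' h' h''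
    (fun _ hz => ((GT ρ σ α a b c q).mul_mem (Rs_leB hz) hg).1) hY x y

include H

/-- T2: the end. -/
theorem mem_of_oneB (hX : ∀ w : L →+* ℝ, w (algebraMap k L a) < 0 →
      w (algebraMap k L b) < 0 ∧ w (algebraMap k L c) < 0)
    {g : OctL E a b c ≃ₗ[E] OctL E a b c} (hg : g ∈ GT ρ σ α a b c q)
    (h1 : (1 : Bd ρ σ q → Matrix (Fin 8) (Fin 8) ℂ) ∈
      clg (Bd ρ σ q) (RsB ρ σ α a b c q) g) : g ∈ RsB ρ σ α a b c q :=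
  mem_of_one_of (Bd_finite H) Rs_leB (open_topB H hX) hg h1

end spec

end Vale.Agent.P011.D4Z
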